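import Vale.Agent.P073.TM923.RT
import Vale.Agent.P073.H894.TMBalls
import Vale.Agent.P073.TM655.Faces

/-!
# P073, block TM-C: the cells are balls
-/

open Set Metric Topology Filter

namespace P073.TM

open P073 PR720 PA691 PA691.BoxCx

/-- **TM-C**, modulo FACES -/
theorem specBalls_of (hF : SpecFaces) : SpecBalls := by
  intro hA Λ v K s c _ _ hc _ j
  rcases j with p | i | e
  · exact conBall_RT s c hA hF hc p
  · exact s.conBall_RV hc i
  · exact s.conBall_RG hc e

/-- **FACES** -/
theorem specFaces : SpecFaces := fun _ _ _ hab h1 h2 h3 h4 =>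
  TM655.conBall_facesU hab h1 h2 h3 h4

/-- **TM-C** -/
theorem specBalls : SpecBalls := specBalls_of specFaces

end P073.TM
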