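import Vale.Agent.P073.Net.NC

/-!
# P073, block TM (target model): the cells of the dyadic Whitney tiling

A dyadic face of level `m` has integer coordinates `z` and a set of normal directions `n`. It is a
*cell* of the tiling if the cubes of level `m` around it are contained in tiles and at least one of
them is a tile. The relative interiors of the cells form a partition of `Λ`.
-/

open Set Metric Topology Filter

namespace P073.TM

open Vale.Agent.P073.St (V)
open P073.Net (SizeFn dyc dyo Adm IsTile)

/-- a dyadic face: level, integer coordinates of the lower corner, normal directions -/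
@[ext] structure Face where
  /-- the level: the side is `2^{-m}` -/
  m : ℕ
  /-- the lower corner, in units of the side -/
  z : Fin 3 → ℤ
  /-- the normal directions -/
  n : Fin 3 → Bool

namespace Face

/-- the side -/
noncomputable def sd (σ : Face) : ℝ := 1 / 2 ^ σ.m

/-- lower bounds -/
noncomputable def lo (v : V) (σ : Face) : V := fun k => v k + σ.z k / 2 ^ σ.m

/-- upper bounds -/
noncomputable def hi (v : V) (σ : Face) : V := fun k => σ.lo v k + if σ.n k then 0 else σ.sd

/-- the closed face -/
def cl (v : V) (σ : Face) : Set V := Icc (σ.lo v) (σ.hi v)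

/-- the relative interior -/
def ri (v : V) (σ : Face) : Set V :=
  {x | ∀ k, if σ.n k then x k = σ.lo v k else σ.lo v k < x k ∧ x k < σ.hi v k}

/-- the coordinates of the cube of level `m` on the side `a` of the face -/
def cube (σ : Face) (a : Fin 3 → Bool) : Fin 3 → ℤ :=
  fun k => σ.z k - if σ.n k && a k then 1 else 0

/-- the closed box of radius `r` around the face -/
def box (v : V) (σ : Face) (r : ℝ) : Set V :=
  {x | ∀ k, σ.lo v k - r ≤ x k ∧ x k ≤ σ.hi v k + r}

/-- vertex -/
def IsV (σ : Face) : Prop := ∀ k, σ.n k = true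

/-- edge with direction `k` -/
def IsE (σ : Face) (k : Fin 3) : Prop := ∀ j, σ.n j = true ↔ j ≠ k

/-- square with normal direction `k` -/
def IsS (σ : Face) (k : Fin 3) : Prop := ∀ j, σ.n j = true ↔ j = k

/-- cube -/
def IsC (σ : Face) : Prop := ∀ k, σ.n k = false

open Classical in
/-- the radius: `2^{-m}/64` for a vertex, `2^{-m}/1024` for an edge -/
noncomputable def rad (σ : Face) : ℝ := if σ.IsV then σ.sd / 64 else σ.sd / 1024

end Face

/-- the cells of the tiling -/
def IsCell (ρ : V → ℝ) (v : V) (σ : Face) : Prop :=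
  (∀ a, ∃ m z, IsTile ρ v m z ∧ dyc v σ.m (σ.cube a) ⊆ dyc v m z) ∧
    ∃ a, IsTile ρ v σ.m (σ.cube a)

/-- the vertices and edges of the tiling -/
def Skel (ρ : V → ℝ) (v : V) : Type := {σ : Face // IsCell ρ v σ ∧ (σ.IsV ∨ ∃ k, σ.IsE k)}

/-- the thin neighbourhood of the one-skeleton: boxes around vertices, beams around edges -/
def HH (ρ : V → ℝ) (v : V) (c : ℝ) : Set V := ⋃ σ : Skel ρ v, σ.1.box v (c * σ.1.rad)

/-- `g v σ x ≤ c` iff `x` is in the box of radius `c * rad σ` around `σ` -/
noncomputable def gau (v : V) (σ : Face) (x : V) : ℝ :=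
  (⨆ k, max (σ.lo v k - x k) (x k - σ.hi v k)) / σ.rad

/-- the level function: `HH c = {φ ≤ c}` for `0 < c < 1` -/
noncomputable def phi (ρ : V → ℝ) (v : V) (x : V) : ℝ :=
  ⨅ σ : Option (Skel ρ v), match σ with
    | none => 1
    | some σ => max 0 (min 1 (gau v σ.1 x))

end P073.TM
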