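import Vale.Agent.P073.TM923.Tile
import Vale.Agent.P073.PA691.TMSpec
import Vale.Agent.P073.H339.SphereJS

/-!
# P073, block TM-C: the cell of a tile is a ball
-/

open Set Metric Topology Filter

set_option linter.unusedSectionVars false

namespace P073.TM

open P073 PR720 PA691 PA691.BoxCx
open Vale.Agent.P073.St (V)

/-- a locally finite family meets a compact set in finitely many members -/
theorem lf_finite {ι : Type*} {A : ι → Set V3} {W C : Set V3} (h : LF A W) (hC : IsCompact C)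
    (hCW : C ⊆ W) : {i | (A i ∩ C).Nonempty}.Finite := by
  choose! U hU hfin using h
  obtain ⟨t, ht, hcov⟩ := hC.elim_nhds_subcover U fun x hx => hU x (hCW hx)
  refine ((t.finite_toSet).biUnion fun x hx => hfin x (hCW (ht x hx))).subset ?_
  rintro i ⟨x, hx1, hx2⟩
  obtain ⟨y, hy, hxy⟩ := mem_iUnion₂.1 (hcov hx2)
  exact mem_iUnion₂.2 ⟨y, hy, x, hx1, hxy⟩

variable {Λ : Set V} {v : V} {K : BoxCx Λ v} (s : K.Sizes) (c : ℝ)

section
include s

theorem r_pos (i : K.W) : 0 < s.r i := by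
  obtain ⟨n, hn⟩ := s.r_dy i
  rw [hn]; positivity

theorem q_pos (e : K.G) : 0 < s.q e := by
  obtain ⟨n, hn⟩ := s.q_dy e
  rw [hn]; positivity

end

theorem wa_le_wb (K : BoxCx Λ v) (e : K.G) (k : Fin 3) : K.w (K.a e) k ≤ K.w (K.b e) k := by
  by_cases hk : k = K.dir e
  · rw [hk]; exact (K.ab_dir e).le
  · rw [K.ab_off e k hk]

theorem mem_edge {e : K.G} {x : V} :
    x ∈ K.edge e ↔ ∀ k, K.w (K.a e) k ≤ x k ∧ x k ≤ K.w (K.b e) k := mem_Icc_pi

theorem mem_edge' {e : K.G} {x : V} : x ∈ K.edge e ↔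
    (K.w (K.a e) (K.dir e) ≤ x (K.dir e) ∧ x (K.dir e) ≤ K.w (K.b e) (K.dir e)) ∧
      ∀ k, k ≠ K.dir e → x k = K.w (K.a e) k := by
  rw [mem_edge]
  constructor
  · intro h
    refine ⟨h _, fun k hk => ?_⟩
    have := h k
    rw [← K.ab_off e k hk] at this
    exact le_antisymm this.2 this.1
  · rintro ⟨h1, h2⟩ k
    by_cases hk : k = K.dir e
    · rw [hk]; exact h1
    · rw [← K.ab_off e k hk, h2 k hk]
      exact ⟨le_rfl, le_rfl⟩

theorem wa_mem (K : BoxCx Λ v) (e : K.G) : K.w (K.a e) ∈ K.edge e :=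
  mem_edge.2 fun k => ⟨le_rfl, wa_le_wb K e k⟩

theorem wb_mem (K : BoxCx Λ v) (e : K.G) : K.w (K.b e) ∈ K.edge e :=
  mem_edge.2 fun k => ⟨wa_le_wb K e k, le_rfl⟩

theorem a_ne_b (K : BoxCx Λ v) (e : K.G) : K.a e ≠ K.b e := by
  intro h
  have := K.ab_dir e
  rw [h] at this
  exact lt_irrefl _ this

theorem mem_cb {x y : V} {r : ℝ} (hr : 0 ≤ r) :
    x ∈ closedBall y r ↔ ∀ k, y k - r ≤ x k ∧ x k ≤ y k + r := by
  rw [mem_closedBall, dist_pi_le_iff hr]
  refine forall_congr' fun k => ?_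
  rw [Real.dist_eq, abs_le]
  constructor
  · rintro ⟨h1, h2⟩
    constructor <;> linarith
  · rintro ⟨h1, h2⟩
    constructor <;> linarith

theorem mem_bl {x y : V} {r : ℝ} (hr : 0 < r) :
    x ∈ ball y r ↔ ∀ k, y k - r < x k ∧ x k < y k + r := by
  rw [mem_ball, dist_pi_lt_iff hr]
  refine forall_congr' fun k => ?_
  rw [Real.dist_eq, abs_lt]
  constructor
  · rintro ⟨h1, h2⟩
    constructor <;> linarith
  · rintro ⟨h1, h2⟩
    constructor <;> linarith

/-- the end points of an edge are far apart -/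
theorem gap (e : K.G) : K.w (K.a e) (K.dir e) + 2 * s.r (K.a e) <
    K.w (K.b e) (K.dir e) - 2 * s.r (K.b e) := by
  have hra := r_pos s (K.a e)
  have hrb := r_pos s (K.b e)
  have hab := K.ab_dir e
  by_contra hc
  push Not at hc
  -- the point in both balls
  set t : ℝ := min (K.w (K.a e) (K.dir e) + 2 * s.r (K.a e)) (K.w (K.b e) (K.dir e)) with ht
  set x : V := fun k => if k = K.dir e then t else K.w (K.a e) k with hx
  have ht1 : t ≤ K.w (K.a e) (K.dir e) + 2 * s.r (K.a e) := min_le_left _ _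
  have ht2 : t ≤ K.w (K.b e) (K.dir e) := min_le_right _ _
  have ht3 : K.w (K.a e) (K.dir e) ≤ t := le_min (by linarith) hab.le
  have ht4 : K.w (K.b e) (K.dir e) - 2 * s.r (K.b e) ≤ t := le_min hc (by linarith)
  have h1 : x ∈ closedBall (K.w (K.a e)) (2 * s.r (K.a e)) := by
    rw [mem_cb (by linarith)]
    intro k
    by_cases hk : k = K.dir e
    · subst hk
      simp only [hx, if_true]
      constructor <;> linarith
    · simp only [hx, if_neg hk]
      constructor <;> linarith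
  have h2 : x ∈ closedBall (K.w (K.b e)) (2 * s.r (K.b e)) := by
    rw [mem_cb (by linarith)]
    intro k
    by_cases hk : k = K.dir e
    · subst hk
      simp only [hx, if_true]
      constructor <;> linarith
    · simp only [hx, if_neg hk]
      rw [K.ab_off e k hk]
      constructor <;> linarith
  exact disjoint_left.1 (s.U_disj _ _ (a_ne_b K e)) h1 h2

/-- the middle point of the edge -/
noncomputable def mid (K : BoxCx Λ v) (e : K.G) : V :=
  fun k => (K.w (K.a e) k + K.w (K.b e) k) / 2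

theorem mid_mem (K : BoxCx Λ v) (e : K.G) : mid K e ∈ K.edge e := by
  rw [mem_edge]
  intro k
  have := wa_le_wb K e k
  simp only [mid]
  constructor <;> linarith

theorem mid_ne_a (K : BoxCx Λ v) (e : K.G) : mid K e ≠ K.w (K.a e) := by
  intro h
  have h1 := congrFun h (K.dir e)
  have h2 := K.ab_dir e
  simp only [mid] at h1
  linarith

theorem mid_ne_b (K : BoxCx Λ v) (e : K.G) : mid K e ≠ K.w (K.b e) := by
  intro h
  have h1 := congrFun h (K.dir e)
  have h2 := K.ab_dir e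
  simp only [mid] at h1
  linarith

theorem mid_notMem_a (e : K.G) : mid K e ∉ ball (K.w (K.a e)) (s.r (K.a e) / 2) := by
  have hra := r_pos s (K.a e)
  have hrb := r_pos s (K.b e)
  intro h
  rw [mem_bl (by linarith)] at h
  have h1 := h (K.dir e)
  have h2 := gap s e
  simp only [mid] at h1
  linarith [h1.1, h1.2]

theorem mid_notMem_b (e : K.G) : mid K e ∉ ball (K.w (K.b e)) (s.r (K.b e) / 2) := by
  have hra := r_pos s (K.a e)
  have hrb := r_pos s (K.b e)
  intro h
  rw [mem_bl (by linarith)] at h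
  have h1 := h (K.dir e)
  have h2 := gap s e
  simp only [mid] at h1
  linarith [h1.1, h1.2]

theorem mem_nb {e : K.G} {t : ℝ} {x : V} :
    x ∈ K.nb e t ↔ ∀ k, K.w (K.a e) k - t ≤ x k ∧ x k ≤ K.w (K.b e) k + t := Iff.rfl

theorem edge_subset_nb {e : K.G} {t : ℝ} (ht : 0 ≤ t) : K.edge e ⊆ K.nb e t := by
  intro x hx k
  have := mem_edge.1 hx k
  constructor <;> linarith [this.1, this.2]

/-- position of an edge in a tile -/
theorem edge_pos (e : K.G) (p : K.T) (h : K.edge e ⊆ K.cube p) (k : Fin 3) (hk : k ≠ K.dir e) :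
    (K.w (K.a e) k ≠ K.lo p k → K.lo p k < K.w (K.a e) k - 2 * s.q e) ∧
      (K.w (K.a e) k ≠ K.hi p k → K.w (K.a e) k + 2 * s.q e < K.hi p k) :=
  (s.tube_tile e p (mid K e)
    (edge_subset_nb (by have := q_pos s e; linarith) (mid_mem K e)) (h (mid_mem K e))
    (mid_notMem_a s e) (mid_notMem_b s e)).2 k hk


theorem ball_subset_cb {x : V} {r c : ℝ} (hr : 0 < r) (hc : c ∈ Ioo (1/2:ℝ) 1) :
    closedBall x (c * r) ⊆ closedBall x (2 * r) := by
  refine closedBall_subset_closedBall ?_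
  have := hc.2
  nlinarith

theorem nb_mono {e : K.G} {t u : ℝ} (h : t ≤ u) : K.nb e t ⊆ K.nb e u := by
  intro x hx k
  have := hx k
  constructor <;> linarith [this.1, this.2]

theorem nb_eq_Icc (e : K.G) (t : ℝ) :
    K.nb e t = Icc (fun k => K.w (K.a e) k - t) (fun k => K.w (K.b e) k + t) := by
  ext x
  rw [mem_Icc_pi]
  rfl

/-- the vertices of the tile -/
abbrev VT (K : BoxCx Λ v) (p : K.T) : Type := {i : K.W // K.w i ∈ K.cube p}

/-- the edges of the tile -/
abbrev ET (K : BoxCx Λ v) (p : K.T) : Type := {e : K.G // K.edge e ⊆ K.cube p}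

include s in
theorem finite_VT (p : K.T) : Finite (VT K p) := by
  have h := lf_finite s.lfU (isCompact_Icc (a := K.lo p) (b := K.hi p)) (K.sub p)
  refine (h.subset ?_).to_subtype
  intro i hi
  exact ⟨K.w i, mem_closedBall_self (by have := r_pos s i; linarith), hi⟩

include s in
theorem finite_ET (p : K.T) : Finite (ET K p) := by
  have h := lf_finite s.lfTube (isCompact_Icc (a := K.lo p) (b := K.hi p)) (K.sub p)
  refine (h.subset ?_).to_subtype
  intro e he
  exact ⟨K.w (K.a e), edge_subset_nb (by have := q_pos s e; linarith) (wa_mem K e),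
    he (wa_mem K e)⟩

/-- the data on the tile -/
noncomputable def geo (hc : c ∈ Ioo (1/2:ℝ) 1) (p : K.T) :
    TileGeo (K.lo p) (K.hi p) (VT K p) (ET K p) where
  w i := K.w i.1
  R i := c * s.r i.1
  p e := ⟨K.a e.1, e.2 (wa_mem K e.1)⟩
  q e := ⟨K.b e.1, e.2 (wb_mem K e.1)⟩
  dir e := K.dir e.1
  r e := c * s.q e.1
  hab := K.lt p
  R_pos i := mul_pos (by linarith [hc.1]) (r_pos s i.1)
  r_pos e := mul_pos (by linarith [hc.1]) (q_pos s e.1)
  posw i k := by
    have hr := r_pos s i.1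
    have hcr : c * s.r i.1 < 2 * s.r i.1 := by nlinarith [hc.2]
    have h := (s.U_tile i.1 p (K.w i.1) (mem_closedBall_self (by linarith)) i.2).2 k
    have hlt := K.lt p k
    by_cases h1 : K.w i.1 k = K.lo p k
    · left
      refine ⟨h1, ?_⟩
      have := h.2 (by rw [h1]; exact hlt.ne)
      linarith
    · right
      by_cases h2 : K.w i.1 k = K.hi p k
      · left
        refine ⟨h2, ?_⟩
        have := h.1 h1
        linarith
      · right
        have e1 := h.1 h1
        have e2 := h.2 h2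
        constructor <;> linarith
  bdw i := K.w_tile i.1 p i.2
  disw i i' hii := (s.U_disj i.1 i'.1 (fun h => hii (Subtype.ext h))).mono
    (ball_subset_cb (r_pos s _) hc) (ball_subset_cb (r_pos s _) hc)
  e_eq e k hk := K.ab_off e.1 k hk
  e_lt e := by
    have h := gap s e.1
    have h1 : c * s.r (K.a e.1) < s.r (K.a e.1) := by nlinarith [hc.2, r_pos s (K.a e.1)]
    have h2 : c * s.r (K.b e.1) < s.r (K.b e.1) := by nlinarith [hc.2, r_pos s (K.b e.1)]
    have h3 := r_pos s (K.a e.1)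
    have h4 := r_pos s (K.b e.1)
    show K.w (K.a e.1) (K.dir e.1) + c * s.r (K.a e.1) <
      K.w (K.b e.1) (K.dir e.1) - c * s.r (K.b e.1)
    linarith
  r_lt e := by
    have h := s.q_le e.1
    have h0 := q_pos s e.1
    have hc0 : 0 < c := by linarith [hc.1]
    constructor
    · show c * s.q e.1 < c * s.r (K.a e.1)
      exact mul_lt_mul_of_pos_left (by linarith [h.1]) hc0
    · show c * s.q e.1 < c * s.r (K.b e.1)
      exact mul_lt_mul_of_pos_left (by linarith [h.2]) hc0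
  pose e k hk := by
    have hr := q_pos s e.1
    have hcr : c * s.q e.1 < 2 * s.q e.1 := by nlinarith [hc.2]
    have h := edge_pos s e.1 p e.2 k hk
    have hlt := K.lt p k
    show (K.w (K.a e.1) k = K.lo p k ∧ K.w (K.a e.1) k + c * s.q e.1 < K.hi p k) ∨
      (K.w (K.a e.1) k = K.hi p k ∧ K.lo p k < K.w (K.a e.1) k - c * s.q e.1) ∨
      (K.lo p k < K.w (K.a e.1) k - c * s.q e.1 ∧ K.w (K.a e.1) k + c * s.q e.1 < K.hi p k)
    by_cases h1 : K.w (K.a e.1) k = K.lo p k
    · left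
      refine ⟨h1, ?_⟩
      have := h.2 (by rw [h1]; exact hlt.ne)
      linarith
    · right
      by_cases h2 : K.w (K.a e.1) k = K.hi p k
      · left
        refine ⟨h2, ?_⟩
        have := h.1 h1
        linarith
      · right
        have e1 := h.1 h1
        have e2 := h.2 h2
        constructor <;> linarith
  bde e := (K.edge_tile e.1 p (mid K e.1) (mid_mem K e.1) (mid_ne_a K e.1) (mid_ne_b K e.1)
    (e.2 (mid_mem K e.1))).2
  disb e i h1 h2 := by
    rw [disjoint_left]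
    intro x hx hx'
    have h0 : c * s.q e.1 ≤ 2 * s.q e.1 := by nlinarith [hc.2, q_pos s e.1]
    have hx1 : x ∈ K.nb e.1 (2 * s.q e.1) := nb_mono h0 (by rw [nb_eq_Icc]; exact hx)
    rcases s.U_edge i.1 e.1 x (ball_subset_cb (r_pos s _) hc hx') hx1 with h | h
    · exact h1 (Subtype.ext h)
    · exact h2 (Subtype.ext h)
  disbb e e' hee := by
    rintro x ⟨hx, hx'⟩
    have h0 : c * s.q e.1 ≤ 2 * s.q e.1 := by nlinarith [hc.2, q_pos s e.1]
    have h0' : c * s.q e'.1 ≤ 2 * s.q e'.1 := by nlinarith [hc.2, q_pos s e'.1]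
    have hx1 : x ∈ K.nb e.1 (2 * s.q e.1) := nb_mono h0 (by rw [nb_eq_Icc]; exact hx)
    have hx2 : x ∈ K.nb e'.1 (2 * s.q e'.1) := nb_mono h0' (by rw [nb_eq_Icc]; exact hx')
    obtain ⟨i, hi, -, hxi⟩ := s.tube_disj e.1 e'.1 (fun h => hee (Subtype.ext h)) x hx1 hx2
    have hic : K.w i ∈ K.cube p := by
      rcases hi with rfl | rfl
      · exact e.2 (wa_mem K e.1)
      · exact e.2 (wb_mem K e.1)
    refine mem_iUnion.2 ⟨⟨i, hic⟩, ball_subset_interior_closedBall ?_⟩
    refine ball_subset_ball ?_ hxi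
    show s.r i / 2 ≤ c * s.r i
    nlinarith [hc.1, r_pos s i]


theorem interior_vbox_geo (hc : c ∈ Ioo (1/2:ℝ) 1) (p : K.T) (i : VT K p) :
    interior ((geo s c hc p).vbox i) = ball (K.w i.1) (c * s.r i.1) :=
  interior_closedBall _ (mul_pos (by linarith [hc.1]) (r_pos s i.1)).ne'

theorem interior_beam_geo (hc : c ∈ Ioo (1/2:ℝ) 1) (p : K.T) (e : ET K p) :
    interior ((geo s c hc p).beam e) = K.nbo e.1 (c * s.q e.1) := by
  rw [TileGeo.beam, interior_Icc3]
  rfl

/-- the cell of the tile is the body of `TileGeo` -/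
theorem RT_eq (hc : c ∈ Ioo (1/2:ℝ) 1) (p : K.T) [Fintype (VT K p)] [Fintype (ET K p)] :
    s.RT c p = (geo s c hc p).K2 := by
  ext x
  rw [TileGeo.mem_K2]
  constructor
  · rintro ⟨hx, hxH⟩
    refine ⟨hx, fun i hi => hxH (Or.inl ?_), fun e he => hxH (Or.inr ?_)⟩
    · rw [interior_vbox_geo] at hi
      exact mem_iUnion.2 ⟨i.1, hi⟩
    · rw [interior_beam_geo] at he
      exact mem_iUnion.2 ⟨e.1, he⟩
  · rintro ⟨hx, hV, hE⟩
    have hball : ∀ i, x ∉ ball (K.w i) (c * s.r i) := by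
      intro i hi
      have hw := (s.U_tile i p x (ball_subset_cb (r_pos s i) hc (ball_subset_closedBall hi)) hx).1
      apply hV ⟨i, hw⟩
      rw [interior_vbox_geo]
      exact hi
    have hhalf : ∀ i, x ∉ ball (K.w i) (s.r i / 2) := by
      intro i hi
      refine hball i (ball_subset_ball ?_ hi)
      nlinarith [hc.1, r_pos s i]
    refine ⟨hx, ?_⟩
    rintro (h | h)
    · obtain ⟨i, hi⟩ := mem_iUnion.1 h
      exact hball i hi
    · obtain ⟨e, he⟩ := mem_iUnion.1 h
      have h0 : c * s.q e ≤ 2 * s.q e := by nlinarith [hc.2, q_pos s e]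
      have hx1 : x ∈ K.nb e (2 * s.q e) := nb_mono h0 fun k => ⟨(he k).1.le, (he k).2.le⟩
      have h2 := (s.tube_tile e p x hx1 hx (hhalf _) (hhalf _)).1
      apply hE ⟨e, h2⟩
      rw [interior_beam_geo]
      exact he

/-- the lower and upper bounds of a square -/
theorem slo_shi (K : BoxCx Λ v) (t : K.S) :
    K.slo t = K.lo (K.sm t) ⊔ K.lo (K.sp t) ∧ K.shi t = K.hi (K.sm t) ⊓ K.hi (K.sp t) := by
  have hle : K.slo t ≤ K.shi t := by
    intro k
    by_cases hk : k = K.nrm t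
    · rw [hk, K.s_flat t]
    · exact (K.s_lt t k hk).le
  have h := K.s_eq t
  rw [Icc_inter_Icc] at h
  have hle2 : K.lo (K.sm t) ⊔ K.lo (K.sp t) ≤ K.hi (K.sm t) ⊓ K.hi (K.sp t) := by
    rw [← nonempty_Icc, ← h]
    exact nonempty_Icc.2 hle
  constructor
  · apply le_antisymm
    · exact (h.symm ▸ left_mem_Icc.2 hle2 :
        K.lo (K.sm t) ⊔ K.lo (K.sp t) ∈ Icc (K.slo t) (K.shi t)).1
    · exact (h ▸ left_mem_Icc.2 hle : K.slo t ∈ Icc (K.lo (K.sm t) ⊔ K.lo (K.sp t))
        (K.hi (K.sm t) ⊓ K.hi (K.sp t))).1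
  · apply le_antisymm
    · exact (h ▸ right_mem_Icc.2 hle : K.shi t ∈ Icc (K.lo (K.sm t) ⊔ K.lo (K.sp t))
        (K.hi (K.sm t) ⊓ K.hi (K.sp t))).2
    · exact (h.symm ▸ right_mem_Icc.2 hle2 :
        K.hi (K.sm t) ⊓ K.hi (K.sp t) ∈ Icc (K.slo t) (K.shi t)).2

theorem fin3_eq : ∀ d n l k : Fin 3, d ≠ n → l ≠ d → l ≠ n → k ≠ n → k ≠ d → k = l := by
  decide

/-- the centre of a square -/
noncomputable def ctr (K : BoxCx Λ v) (t : K.S) : V := fun k => (K.slo t k + K.shi t k) / 2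

theorem slo_le_shi (K : BoxCx Λ v) (t : K.S) (k : Fin 3) : K.slo t k ≤ K.shi t k := by
  by_cases hk : k = K.nrm t
  · rw [hk, K.s_flat t]
  · exact (K.s_lt t k hk).le

theorem ctr_mem (K : BoxCx Λ v) (t : K.S) : ctr K t ∈ K.sq t := by
  refine mem_Icc_pi.2 fun k => ?_
  have := slo_le_shi K t k
  simp only [ctr]
  constructor <;> linarith

theorem sq_subset (K : BoxCx Λ v) (t : K.S) : K.sq t ⊆ K.cube (K.sm t) ∧ K.sq t ⊆ K.cube (K.sp t) :=
  ⟨(K.s_eq t).trans_subset inter_subset_left, (K.s_eq t).trans_subset inter_subset_right⟩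

theorem nrm_eq {t : K.S} {x : V} (hx : x ∈ K.sq t) : x (K.nrm t) = K.slo t (K.nrm t) := by
  have h := mem_Icc_pi.1 hx (K.nrm t)
  rw [← K.s_flat t] at h
  exact le_antisymm h.2 h.1

/-- the centre of a square is not in the boxes -/
theorem ctr_notMem_box (t : K.S) (i : K.W) : ctr K t ∉ closedBall (K.w i) (s.r i) := by
  intro h
  have hr := r_pos s i
  have hμ := s.μ_pos t
  have h2 : ctr K t ∈ closedBall (K.w i) (2 * s.r i) :=
    closedBall_subset_closedBall (by linarith) h
  have hc := ctr_mem K t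
  have hw : K.w i ∈ K.sq t := by
    refine s.μ_U t i _ h2 fun k => ?_
    have := mem_Icc_pi.1 hc k
    constructor <;> linarith [this.1, this.2]
  -- the vertex is in the relative boundary
  obtain ⟨k, hk, hk'⟩ : ∃ k, k ≠ K.nrm t ∧ (K.w i k = K.slo t k ∨ K.w i k = K.shi t k) := by
    by_contra hcon
    push Not at hcon
    obtain ⟨e, he⟩ := K.w_edge i
    have hwe : K.w i ∈ K.edge e := by
      rcases he with rfl | rfl
      · exact wa_mem K e
      · exact wb_mem K e
    refine K.sqo_edge t (K.w i) (nrm_eq hw) (fun k hk => ?_) e hwe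
    have := mem_Icc_pi.1 hw k
    exact ⟨lt_of_le_of_ne this.1 (hcon k hk).1.symm, lt_of_le_of_ne this.2 (hcon k hk).2⟩
  rw [mem_cb hr.le] at h
  have h3 := h k
  have hlt := K.s_lt t k hk
  obtain ⟨e1, e2⟩ := slo_shi K t
  have e1k : K.slo t k = max (K.lo (K.sm t) k) (K.lo (K.sp t) k) := by rw [e1]; rfl
  have e2k : K.shi t k = min (K.hi (K.sm t) k) (K.hi (K.sp t) k) := by rw [e2]; rfl
  have u1 := (s.U_tile i (K.sm t) _ h2 ((sq_subset K t).1 hc)).2 k
  have u2 := (s.U_tile i (K.sp t) _ h2 ((sq_subset K t).2 hc)).2 k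
  simp only [ctr] at h3
  rcases hk' with hk' | hk'
  · rcases min_choice (K.hi (K.sm t) k) (K.hi (K.sp t) k) with hm | hm
    · rw [hm] at e2k
      have := u1.2 (by rw [← e2k, hk']; exact hlt.ne)
      linarith [h3.1, h3.2]
    · rw [hm] at e2k
      have := u2.2 (by rw [← e2k, hk']; exact hlt.ne)
      linarith [h3.1, h3.2]
  · rcases max_choice (K.lo (K.sm t) k) (K.lo (K.sp t) k) with hm | hm
    · rw [hm] at e1k
      have := u1.1 (by rw [← e1k, hk']; exact hlt.ne')
      linarith [h3.1, h3.2]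
    · rw [hm] at e1k
      have := u2.1 (by rw [← e1k, hk']; exact hlt.ne')
      linarith [h3.1, h3.2]

/-- the centre of a square is not in the beams -/
theorem ctr_notMem_nb (t : K.S) (e : K.G) : ctr K t ∉ K.nb e (s.q e) := by
  intro h
  have hq := q_pos s e
  have hμ := s.μ_pos t
  have h2 : ctr K t ∈ K.nb e (2 * s.q e) := nb_mono (by linarith) h
  have hc := ctr_mem K t
  have hb : ∀ i, ctr K t ∉ ball (K.w i) (s.r i / 2) := by
    intro i hi
    refine ctr_notMem_box s t i (ball_subset_closedBall (ball_subset_ball ?_ hi))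
    have := r_pos s i
    linarith
  have hes : K.edge e ⊆ K.sq t := by
    refine s.μ_tube t e _ h2 (fun k => ?_) (hb _) (hb _)
    have := mem_Icc_pi.1 hc k
    constructor <;> linarith [this.1, this.2]
  have hd : K.dir e ≠ K.nrm t := by
    intro hd
    have h3 := nrm_eq (hes (wa_mem K e))
    have h4 := nrm_eq (hes (wb_mem K e))
    have h5 := K.ab_dir e
    rw [hd] at h5
    linarith
  -- the third direction
  obtain ⟨l, hl, hl'⟩ := TileGeo.exists_third (K.dir e) (K.nrm t)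
  have hml : mid K e l = K.w (K.a e) l := (mem_edge'.1 (mid_mem K e)).2 l hl
  have hwl : K.w (K.a e) l = K.slo t l ∨ K.w (K.a e) l = K.shi t l := by
    by_contra hcon
    push Not at hcon
    refine K.sqo_edge t (mid K e) (nrm_eq (hes (mid_mem K e))) (fun k hk => ?_) e (mid_mem K e)
    have ha := mem_Icc_pi.1 (hes (wa_mem K e)) k
    have hb' := mem_Icc_pi.1 (hes (wb_mem K e)) k
    by_cases hkd : k = K.dir e
    · subst hkd
      have := K.ab_dir e
      simp only [mid]
      constructor <;> linarith [ha.1, hb'.2]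
    · have hkl : k = l := fin3_eq _ _ _ _ hd hl hl' hk hkd
      subst hkl
      rw [hml]
      exact ⟨lt_of_le_of_ne ha.1 hcon.1.symm, lt_of_le_of_ne ha.2 hcon.2⟩
  have h3 := h l
  rw [← K.ab_off e l hl] at h3
  have hlt := K.s_lt t l hl'
  obtain ⟨e1, e2⟩ := slo_shi K t
  have e1k : K.slo t l = max (K.lo (K.sm t) l) (K.lo (K.sp t) l) := by rw [e1]; rfl
  have e2k : K.shi t l = min (K.hi (K.sm t) l) (K.hi (K.sp t) l) := by rw [e2]; rfl
  have u1 := (s.tube_tile e (K.sm t) _ h2 ((sq_subset K t).1 hc) (hb _) (hb _)).2 l hl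
  have u2 := (s.tube_tile e (K.sp t) _ h2 ((sq_subset K t).2 hc) (hb _) (hb _)).2 l hl
  simp only [ctr] at h3
  rcases hwl with hk' | hk'
  · rcases min_choice (K.hi (K.sm t) l) (K.hi (K.sp t) l) with hm | hm
    · rw [hm] at e2k
      have := u1.2 (by rw [← e2k, hk']; exact hlt.ne)
      linarith [h3.1, h3.2]
    · rw [hm] at e2k
      have := u2.2 (by rw [← e2k, hk']; exact hlt.ne)
      linarith [h3.1, h3.2]
  · rcases max_choice (K.lo (K.sm t) l) (K.lo (K.sp t) l) with hm | hm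
    · rw [hm] at e1k
      have := u1.1 (by rw [← e1k, hk']; exact hlt.ne')
      linarith [h3.1, h3.2]
    · rw [hm] at e1k
      have := u2.1 (by rw [← e1k, hk']; exact hlt.ne')
      linarith [h3.1, h3.2]


/-- there is a square in the boundary of the tile -/
theorem exists_square (K : BoxCx Λ v) (p : K.T) : ∃ t, p = K.sm t ∨ p = K.sp t := by
  have hfin := lf_finite K.lfG (isCompact_Icc (a := K.lo p) (b := K.hi p)) (K.sub p)
  have hf : ∀ k : Fin 3, ∃ y, K.lo p k < y ∧ y < K.hi p k ∧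
      ∀ e, (K.edge e ∩ K.cube p).Nonempty → K.w (K.a e) k ≠ y := by
    intro k
    have h1 : (Ioo (K.lo p k) (K.hi p k) \ (fun e => K.w (K.a e) k) ''
        {e | (K.edge e ∩ K.cube p).Nonempty}).Nonempty := by
      have : (Ioo (K.lo p k) (K.hi p k)).Infinite := Ioo_infinite (K.lt p k)
      exact (this.sdiff (hfin.image _)).nonempty
    obtain ⟨y, hy, hy'⟩ := h1
    exact ⟨y, hy.1, hy.2, fun e he h => hy' ⟨e, he, h⟩⟩
  choose y hy1 hy2 hy3 using hf
  set x : V := fun k => if k = 0 then K.lo p k else y k with hx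
  have hxm : x ∈ K.cube p := by
    refine mem_Icc_pi.2 fun k => ?_
    have h1 := K.lt p k
    have h2 := hy1 k
    have h3 := hy2 k
    simp only [hx]
    split_ifs
    · exact ⟨le_rfl, h1.le⟩
    · exact ⟨h2.le, h3.le⟩
  have hne : ∀ e, x ∉ K.edge e := by
    intro e he
    obtain ⟨l, hl, hl0⟩ := TileGeo.exists_third (K.dir e) 0
    have h1 := (mem_edge'.1 he).2 l hl
    have h2 : x l = y l := by simp [hx, hl0]
    exact hy3 l e ⟨x, he, hxm⟩ (by rw [← h1, h2])
  obtain ⟨t, ht, -⟩ := K.face_cover p x hxm ⟨0, Or.inl (by simp [hx])⟩ hne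
  exact ⟨t, ht⟩

include s in
theorem exists_out (hc : c ∈ Ioo (1/2:ℝ) 1) (p : K.T) : ∃ x ∈ frontier (K.cube p),
    (∀ i, x ∉ (geo s c hc p).vbox i) ∧ ∀ j, x ∉ (geo s c hc p).beam j := by
  obtain ⟨t, ht⟩ := exists_square K p
  have hm := ctr_mem K t
  refine ⟨ctr K t, mem_frontier_Icc3.2 ⟨?_, K.nrm t, ?_⟩, fun i hi => ?_, fun e he => ?_⟩
  · rcases ht with rfl | rfl
    · exact (sq_subset K t).1 hm
    · exact (sq_subset K t).2 hm
  · rw [nrm_eq hm]
    rcases ht with rfl | rfl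
    · exact Or.inr (K.s_lev t).1.symm
    · exact Or.inl (K.s_lev t).2.symm
  · refine ctr_notMem_box s t i.1 (closedBall_subset_closedBall ?_ hi)
    show c * s.r i.1 ≤ s.r i.1
    nlinarith [hc.2, r_pos s i.1]
  · have h0 : c * s.q e.1 ≤ s.q e.1 := by nlinarith [hc.2, q_pos s e.1]
    exact ctr_notMem_nb s t e.1 (nb_mono h0 (by rw [nb_eq_Icc]; exact he))

/-- **The cell of a tile is a ball** (input: Alexander-Schoenflies and FACES) -/
theorem conBall_RT (hA : SpecALX) (hF : SpecFaces) (hc : c ∈ Ioo (1/2:ℝ) 1) (p : K.T) :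
    ConBall 3 (s.RT c p) (frontier (s.RT c p)) := by
  have := finite_VT s p
  have := finite_ET s p
  let _ : Fintype (VT K p) := Fintype.ofFinite _
  let _ : Fintype (ET K p) := Fintype.ofFinite _
  rw [RT_eq s c hc p]
  exact (geo s c hc p).conBall_K2 hA H339.jordanSch_sphere hF (exists_out s c hc p)

end P073.TM
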