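import Vale.Agent.P073.GB371.InOut

/-!
# P073, block TM-C: iterated subtraction

`K` is a conical ball in three-space, `A i` are finitely many regular closed sets which are pairwise
disjoint on `K` and each of which cuts `K` along a properly embedded disc. Then the complement of
the interiors of the `A i` in `K` is a conical ball.
-/

open Set Metric Topology Filter

set_option linter.unusedSectionVars false

namespace P073.TM

variable {E : Type} [NormedAddCommGroup E] [NormedSpace ℝ E]

/-- frontier of the complement of finitely many regular closed sets -/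
theorem interior_diff_family {ι : Type*} (s : Finset ι) {K : Set E} {A : ι → Set E}
    (hreg : ∀ i ∈ s, closure (interior (A i)) = A i) :
    interior (K \ ⋃ i ∈ s, interior (A i)) = interior K \ ⋃ i ∈ s, A i := by
  have h1 : K \ ⋃ i ∈ s, interior (A i) = K ∩ (⋃ i ∈ s, interior (A i))ᶜ := rfl
  rw [h1, interior_inter, interior_compl, Finset.closure_biUnion]
  have h2 : ⋃ i ∈ s, closure (interior (A i)) = ⋃ i ∈ s, A i :=
    iUnion₂_congr fun i hi => hreg i hi
  rw [h2]
  rfl

theorem isClosed_diff_family {ι : Type*} (s : Finset ι) {K : Set E} {A : ι → Set E}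
    (hK : IsClosed K) : IsClosed (K \ ⋃ i ∈ s, interior (A i)) :=
  hK.sdiff (isOpen_biUnion fun _ _ => isOpen_interior)

theorem frontier_diff_family {ι : Type*} (s : Finset ι) {K : Set E} {A : ι → Set E}
    (hK : IsClosed K) (hreg : ∀ i ∈ s, closure (interior (A i)) = A i) :
    frontier (K \ ⋃ i ∈ s, interior (A i)) =
      (K \ ⋃ i ∈ s, interior (A i)) ∩ (frontier K ∪ ⋃ i ∈ s, A i) := by
  rw [(isClosed_diff_family s hK).frontier_eq, interior_diff_family s hreg, hK.frontier_eq]
  ext x
  simp only [Set.mem_sdiff, mem_inter_iff, mem_union]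
  tauto

/-- one step: the complement of the interior of a regular closed set -/
theorem frontier_diff_interior {K A : Set E} (hK : IsClosed K)
    (hreg : closure (interior A) = A) :
    frontier (K \ interior A) = (frontier K \ interior A) ∪ (K ∩ frontier A) := by
  have hA : IsClosed A := by rw [← hreg]; exact isClosed_closure
  have h1 : IsClosed (K \ interior A) := hK.sdiff isOpen_interior
  have h2 : interior (K \ interior A) = interior K \ A := by
    have : K \ interior A = K ∩ (interior A)ᶜ := rfl
    rw [this, interior_inter, interior_compl, hreg]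
    rfl
  rw [h1.frontier_eq, h2, hK.frontier_eq, hA.frontier_eq]
  ext x
  simp only [Set.mem_sdiff, mem_inter_iff, mem_union]
  tauto

/-- **Iterated subtraction.** -/
theorem conBall_diff_family (hS : AmbSch 2)
    (hJ : JordanSch 2 (sphere (0 : Fin 3 → ℝ) 1)) {ι : Type*} (s : Finset ι) {K : Set E}
    {A : ι → Set E} (hK : ConBall 3 K (frontier K))
    (hreg : ∀ i ∈ s, closure (interior (A i)) = A i)
    (hdis : ∀ i ∈ s, ∀ j ∈ s, i ≠ j → Disjoint (K ∩ A i) (A j))
    (hD : ∀ i ∈ s, ConBall 2 (K ∩ frontier (A i)) (frontier K ∩ frontier (A i)))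
    (hin : ∀ i ∈ s, (frontier K ∩ interior (A i)).Nonempty)
    (hout : (frontier K \ ⋃ i ∈ s, A i).Nonempty) :
    ConBall 3 (K \ ⋃ i ∈ s, interior (A i)) (frontier (K \ ⋃ i ∈ s, interior (A i))) := by
  classical
  have hKc := hK.isClosed
  -- induction over subfamilies
  suffices H : ∀ t ⊆ s, ConBall 3 (K \ ⋃ i ∈ t, interior (A i))
      (frontier (K \ ⋃ i ∈ t, interior (A i))) from H s subset_rfl
  intro t
  induction t using Finset.induction_on with
  | empty => intro _; simpa using hK
  | insert i t hit ih =>
    intro hts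
    have hti : t ⊆ s := fun j hj => hts (Finset.mem_insert_of_mem hj)
    have his : i ∈ s := hts (Finset.mem_insert_self i t)
    have ih' := ih hti
    set L := K \ ⋃ j ∈ t, interior (A j) with hL
    have hLc : IsClosed L := isClosed_diff_family t hKc
    have hfr : frontier L = L ∩ (frontier K ∪ ⋃ j ∈ t, A j) :=
      frontier_diff_family t hKc fun j hj => hreg j (hti hj)
    have hAc : IsClosed (A i) := by rw [← hreg i his]; exact isClosed_closure
    -- points of `K ∩ A i` are not in the other sets
    have hne : ∀ x ∈ K, x ∈ A i → ∀ j ∈ t, x ∉ A j := by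
      intro x hxK hxA j hj hxj
      have hij : i ≠ j := by
        rintro rfl
        exact hit hj
      exact disjoint_left.1 (hdis i his j (hti hj) hij) ⟨hxK, hxA⟩ hxj
    have hmem : ∀ x ∈ K, x ∈ A i → x ∈ L := by
      intro x hxK hxA
      refine ⟨hxK, fun h => ?_⟩
      obtain ⟨j, hj, hxj⟩ := mem_iUnion₂.1 h
      exact hne x hxK hxA j hj (interior_subset hxj)
    have e1 : L ∩ frontier (A i) = K ∩ frontier (A i) := by
      ext x
      constructor
      · rintro ⟨h1, h2⟩
        exact ⟨h1.1, h2⟩
      · rintro ⟨h1, h2⟩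
        exact ⟨hmem x h1 (hAc.frontier_subset h2), h2⟩
    have e2 : frontier L ∩ frontier (A i) = frontier K ∩ frontier (A i) := by
      ext x
      constructor
      · rintro ⟨h1, h2⟩
        refine ⟨?_, h2⟩
        rw [hfr] at h1
        rcases h1.2 with h | h
        · exact h
        · obtain ⟨j, hj, hxj⟩ := mem_iUnion₂.1 h
          exact absurd hxj (hne x h1.1.1 (hAc.frontier_subset h2) j hj)
      · rintro ⟨h1, h2⟩
        refine ⟨?_, h2⟩
        rw [hfr]
        exact ⟨hmem x (hKc.frontier_subset h1) (hAc.frontier_subset h2), Or.inl h1⟩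
    have hD' : ConBall 2 (L ∩ frontier (A i)) (frontier L ∩ frontier (A i)) := by
      rw [e1, e2]
      exact hD i his
    have h1 : (frontier L ∩ interior (A i)).Nonempty := by
      obtain ⟨x, hx1, hx2⟩ := hin i his
      refine ⟨x, ?_, hx2⟩
      rw [hfr]
      exact ⟨hmem x (hKc.frontier_subset hx1) (interior_subset hx2), Or.inl hx1⟩
    have h2 : (frontier L \ A i).Nonempty := by
      obtain ⟨x, hx1, hx2⟩ := hout
      refine ⟨x, ?_, fun h => hx2 (mem_iUnion₂.2 ⟨i, his, h⟩)⟩
      rw [hfr]
      refine ⟨⟨hKc.frontier_subset hx1, fun h => ?_⟩, Or.inl hx1⟩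
      obtain ⟨j, hj, hxj⟩ := mem_iUnion₂.1 h
      exact hx2 (mem_iUnion₂.2 ⟨j, hti hj, interior_subset hxj⟩)
    have h3 := (inOut_three hS hJ ih' hAc hD' h1 h2).2.2
    have e3 : K \ ⋃ j ∈ insert i t, interior (A j) = L \ interior (A i) := by
      ext x
      simp only [hL, Set.mem_sdiff, mem_iUnion, Finset.mem_insert, exists_prop, not_exists, not_and,
        forall_eq_or_imp]
      tauto
    rw [e3, frontier_diff_interior hLc (hreg i his)]
    exact h3

end P073.TM
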