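import Vale.Agent.P073.TM923.Stage
import Vale.Agent.P073.PR.Faces

/-!
# P073, block TM-C: a cube minus boxes around vertices and beams around edges is a ball
-/

open Set Metric Topology Filter

set_option linter.unusedSectionVars false

namespace P073.TM

/-- three-space -/
abbrev V3 : Type := Fin 3 → ℝ

/-- the union of the faces of the box `Icc a b` in the set `S`; `(k, false)` is the lower and
`(k, true)` the upper face in the direction `k` -/
def facesU (a b : V3) (S : Set (Fin 3 × Bool)) : Set V3 :=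
  {x | x ∈ Icc a b ∧ ∃ f ∈ S, x f.1 = if f.2 then b f.1 else a f.1}

/-- (FACES) -/
def SpecFaces : Prop :=
  ∀ (a b : V3) (S : Set (Fin 3 × Bool)), (∀ k, a k < b k) → S.Nonempty → Sᶜ.Nonempty →
    (∀ k, S ≠ {(k, false), (k, true)}) → (∀ k, Sᶜ ≠ {(k, false), (k, true)}) →
    ConBall 2 (facesU a b S) (facesU a b S ∩ facesU a b Sᶜ)

theorem mem_Icc_pi {a b x : V3} : x ∈ Icc a b ↔ ∀ k, a k ≤ x k ∧ x k ≤ b k :=
  ⟨fun h k => ⟨h.1 k, h.2 k⟩, fun h => ⟨fun k => (h k).1, fun k => (h k).2⟩⟩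

theorem interior_Icc3 (a b : V3) : interior (Icc a b) = {x | ∀ k, a k < x k ∧ x k < b k} := by
  rw [← pi_univ_Icc, interior_pi_set finite_univ]
  ext x
  simp [interior_Icc]

theorem mem_frontier_Icc3 {a b x : V3} :
    x ∈ frontier (Icc a b) ↔ x ∈ Icc a b ∧ ∃ k, x k = a k ∨ x k = b k := by
  rw [isClosed_Icc.frontier_eq, Set.mem_sdiff, interior_Icc3]
  constructor
  · rintro ⟨h1, h2⟩
    refine ⟨h1, ?_⟩
    by_contra hc
    push Not at hc
    apply h2
    intro k
    have := mem_Icc_pi.1 h1 k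
    exact ⟨lt_of_le_of_ne this.1 (hc k).1.symm, lt_of_le_of_ne this.2 (hc k).2⟩
  · rintro ⟨h1, k, h2⟩
    refine ⟨h1, fun h => ?_⟩
    have := h k
    rcases h2 with h2 | h2
    · linarith [this.1]
    · linarith [this.2]

theorem closure_interior_Icc3 {a b : V3} (h : ∀ k, a k < b k) :
    closure (interior (Icc a b)) = Icc a b := by
  rw [← pi_univ_Icc, interior_pi_set finite_univ, closure_pi_set]
  congr 1
  funext k
  rw [interior_Icc, closure_Ioo (h k).ne]

/-- The general form of one cutting surface: `P` is a box, the frontier of the removed set `A` meets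
the body `K` exactly in the faces `S` of the box, and these meet the frontier of the body exactly
in the other faces. -/
theorem disc_of_faces (hF : SpecFaces) {K A : Set V3} {a b : V3} {S : Set (Fin 3 × Bool)}
    (hab : ∀ k, a k < b k) (hS : S.Nonempty) (hS' : Sᶜ.Nonempty)
    (h1 : ∀ k, S ≠ {(k, false), (k, true)}) (h2 : ∀ k, Sᶜ ≠ {(k, false), (k, true)})
    (hK : K ∩ frontier A = facesU a b S)
    (hK' : ∀ x ∈ facesU a b S, x ∈ frontier K ↔ x ∈ facesU a b Sᶜ) (hKc : IsClosed K) :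
    ConBall 2 (K ∩ frontier A) (frontier K ∩ frontier A) := by
  have e : frontier K ∩ frontier A = facesU a b S ∩ facesU a b Sᶜ := by
    ext x
    constructor
    · rintro ⟨hx1, hx2⟩
      have hx : x ∈ facesU a b S := hK ▸ ⟨hKc.frontier_subset hx1, hx2⟩
      exact ⟨hx, (hK' x hx).1 hx1⟩
    · rintro ⟨hx1, hx2⟩
      have hx : x ∈ K ∩ frontier A := hK ▸ hx1
      exact ⟨(hK' x hx1).2 hx2, hx.2⟩
  rw [e, hK]
  exact hF a b S hab hS hS' h1 h2

/-- the data on a tile `Icc a b`: vertices `w i` with radii `R i`, edges `e j` with directions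
`k j`, end points `p j`, `q j` (vertices) and radii `r j` -/
structure TileGeo (a b : V3) (ι κ : Type) where
  /-- the vertices -/
  w : ι → V3
  R : ι → ℝ
  /-- the edges -/
  p : κ → ι
  q : κ → ι
  dir : κ → Fin 3
  r : κ → ℝ
  hab : ∀ k, a k < b k
  R_pos : ∀ i, 0 < R i
  r_pos : ∀ j, 0 < r j
  /-- position of the vertices relative to the tile -/
  posw : ∀ i k, (w i k = a k ∧ w i k + R i < b k) ∨ (w i k = b k ∧ a k < w i k - R i) ∨
    (a k < w i k - R i ∧ w i k + R i < b k)
  bdw : ∀ i, ∃ k, w i k = a k ∨ w i k = b k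
  disw : ∀ i i', i ≠ i' → Disjoint (closedBall (w i) (R i)) (closedBall (w i') (R i'))
  /-- the edges -/
  e_eq : ∀ j k, k ≠ dir j → w (p j) k = w (q j) k
  e_lt : ∀ j, w (p j) (dir j) + R (p j) < w (q j) (dir j) - R (q j)
  r_lt : ∀ j, r j < R (p j) ∧ r j < R (q j)
  pose : ∀ j k, k ≠ dir j → (w (p j) k = a k ∧ w (p j) k + r j < b k) ∨
    (w (p j) k = b k ∧ a k < w (p j) k - r j) ∨
    (a k < w (p j) k - r j ∧ w (p j) k + r j < b k)
  bde : ∀ j, ∃ k, k ≠ dir j ∧ (w (p j) k = a k ∨ w (p j) k = b k)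
  disb : ∀ j i, i ≠ p j → i ≠ q j →
    Disjoint (Icc (fun k => w (p j) k - r j) (fun k => w (q j) k + r j)) (closedBall (w i) (R i))
  disbb : ∀ j j', j ≠ j' → Icc (fun k => w (p j) k - r j) (fun k => w (q j) k + r j) ∩
    Icc (fun k => w (p j') k - r j') (fun k => w (q j') k + r j') ⊆
      ⋃ i, interior (closedBall (w i) (R i))

namespace TileGeo

variable {a b : V3} {ι κ : Type} (G : TileGeo a b ι κ)

/-- the beam around the edge `j` -/
def beam (j : κ) : Set V3 :=
  Icc (fun k => G.w (G.p j) k - G.r j) (fun k => G.w (G.q j) k + G.r j)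

theorem w_ge (i : ι) (k : Fin 3) : a k ≤ G.w i k := by
  have := G.R_pos i
  have := G.hab k
  rcases G.posw i k with h | h | h <;> linarith [h.1, h.2]

theorem w_le (i : ι) (k : Fin 3) : G.w i k ≤ b k := by
  have := G.R_pos i
  have := G.hab k
  rcases G.posw i k with h | h | h <;> linarith [h.1, h.2]

/-- the box around the vertex `i` -/
def vbox (i : ι) : Set V3 := closedBall (G.w i) (G.R i)

theorem vbox_eq (i : ι) :
    G.vbox i = Icc (fun k => G.w i k - G.R i) (fun k => G.w i k + G.R i) := by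
  ext x
  rw [vbox, mem_closedBall, dist_pi_le_iff (G.R_pos i).le, mem_Icc_pi]
  refine forall_congr' fun k => ?_
  rw [Real.dist_eq, abs_le]
  constructor
  · rintro ⟨h1, h2⟩
    constructor <;> linarith
  · rintro ⟨h1, h2⟩
    constructor <;> linarith

theorem closure_interior_vbox (i : ι) : closure (interior (G.vbox i)) = G.vbox i := by
  have := G.R_pos i
  rw [vbox_eq]
  exact closure_interior_Icc3 fun k => by linarith

theorem mem_interior_vbox {i : ι} {x : V3} :
    x ∈ interior (G.vbox i) ↔ ∀ k, G.w i k - G.R i < x k ∧ x k < G.w i k + G.R i := by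
  rw [vbox_eq, interior_Icc3]
  rfl

theorem mem_vbox {i : ι} {x : V3} :
    x ∈ G.vbox i ↔ ∀ k, G.w i k - G.R i ≤ x k ∧ x k ≤ G.w i k + G.R i := by
  rw [vbox_eq, mem_Icc_pi]

theorem mem_beam {j : κ} {x : V3} :
    x ∈ G.beam j ↔ ∀ k, G.w (G.p j) k - G.r j ≤ x k ∧ x k ≤ G.w (G.q j) k + G.r j := by
  rw [beam, mem_Icc_pi]

theorem beam_lt (j : κ) (k : Fin 3) : G.w (G.p j) k - G.r j < G.w (G.q j) k + G.r j := by
  have h0 := G.r_pos j
  have h1 := G.R_pos (G.p j)
  have h2 := G.R_pos (G.q j)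
  by_cases hk : k = G.dir j
  · subst hk
    have := G.e_lt j
    linarith
  · rw [← G.e_eq j k hk]
    linarith

theorem closure_interior_beam (j : κ) : closure (interior (G.beam j)) = G.beam j :=
  closure_interior_Icc3 fun k => G.beam_lt j k

/-! ### Stage one -/

/-- lower bounds of the box `Icc a b ∩ vbox i` -/
noncomputable def lo1 (i : ι) : V3 := open Classical in
  fun k => if G.w i k = a k then a k else G.w i k - G.R i

/-- upper bounds of the box `Icc a b ∩ vbox i` -/
noncomputable def hi1 (i : ι) : V3 := open Classical in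
  fun k => if G.w i k = b k then b k else G.w i k + G.R i

/-- the inner faces -/
def S1 (i : ι) : Set (Fin 3 × Bool) :=
  {f | if f.2 then G.w i f.1 ≠ b f.1 else G.w i f.1 ≠ a f.1}

theorem lo1_lt_hi1 (i : ι) (k : Fin 3) : G.lo1 i k < G.hi1 i k := by
  have h0 := G.R_pos i
  have h1 := G.w_ge i k
  have h2 := G.w_le i k
  have h3 := G.hab k
  unfold lo1 hi1
  split_ifs <;> linarith

theorem mem_box1 {i : ι} {x : V3} :
    x ∈ Icc (G.lo1 i) (G.hi1 i) ↔ x ∈ Icc a b ∧ x ∈ G.vbox i := by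
  have h0 := G.R_pos i
  rw [mem_Icc_pi, mem_Icc_pi, mem_vbox, ← forall_and]
  refine forall_congr' fun k => ?_
  unfold lo1 hi1
  have h3 := G.hab k
  rcases G.posw i k with h | h | h
  · rw [if_pos h.1, if_neg (by linarith [h.1, h.2] : G.w i k ≠ b k)]
    constructor
    · rintro ⟨e1, e2⟩
      refine ⟨⟨e1, ?_⟩, ?_, e2⟩ <;> linarith [h.1, h.2]
    · rintro ⟨⟨e1, e2⟩, e3, e4⟩
      exact ⟨e1, e4⟩
  · rw [if_neg (by linarith [h.1, h.2] : G.w i k ≠ a k), if_pos h.1]
    constructor
    · rintro ⟨e1, e2⟩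
      refine ⟨⟨?_, e2⟩, e1, ?_⟩ <;> linarith [h.1, h.2]
    · rintro ⟨⟨e1, e2⟩, e3, e4⟩
      exact ⟨e3, e2⟩
  · rw [if_neg (by linarith [h.1, h.2] : G.w i k ≠ a k),
      if_neg (by linarith [h.1, h.2] : G.w i k ≠ b k)]
    constructor
    · rintro ⟨e1, e2⟩
      refine ⟨⟨?_, ?_⟩, e1, e2⟩ <;> linarith [h.1, h.2]
    · rintro ⟨⟨e1, e2⟩, e3, e4⟩
      exact ⟨e3, e4⟩

theorem mem_frontier_vbox {i : ι} {x : V3} : x ∈ frontier (G.vbox i) ↔
    x ∈ G.vbox i ∧ ∃ k, x k = G.w i k - G.R i ∨ x k = G.w i k + G.R i := by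
  rw [vbox_eq, mem_frontier_Icc3]

theorem mem_frontier_beam {j : κ} {x : V3} : x ∈ frontier (G.beam j) ↔
    x ∈ G.beam j ∧ ∃ k, x k = G.w (G.p j) k - G.r j ∨ x k = G.w (G.q j) k + G.r j :=
  mem_frontier_Icc3

theorem stage1_inter (i : ι) :
    Icc a b ∩ frontier (G.vbox i) = facesU (G.lo1 i) (G.hi1 i) (G.S1 i) := by
  have h0 := G.R_pos i
  ext x
  constructor
  · rintro ⟨hx1, hx2⟩
    obtain ⟨hx2, k, hk⟩ := G.mem_frontier_vbox.1 hx2
    refine ⟨G.mem_box1.2 ⟨hx1, hx2⟩, ?_⟩
    have h1 := mem_Icc_pi.1 hx1 k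
    rcases hk with hk | hk
    · have hne : G.w i k ≠ a k := by
        intro h
        linarith [h1.1]
      refine ⟨(k, false), by simpa [S1] using hne, ?_⟩
      simp only [lo1, if_neg hne, Bool.false_eq_true, if_false]
      exact hk
    · have hne : G.w i k ≠ b k := by
        intro h
        linarith [h1.2]
      refine ⟨(k, true), by simpa [S1] using hne, ?_⟩
      simp only [hi1, if_neg hne, if_true]
      exact hk
  · rintro ⟨hx, ⟨k, s⟩, hf, hk⟩
    obtain ⟨hx1, hx2⟩ := G.mem_box1.1 hx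
    refine ⟨hx1, G.mem_frontier_vbox.2 ⟨hx2, k, ?_⟩⟩
    cases s
    · left
      have hne : G.w i k ≠ a k := by simpa [S1] using hf
      simpa [lo1, hne] using hk
    · right
      have hne : G.w i k ≠ b k := by simpa [S1] using hf
      simpa [hi1, hne] using hk

theorem stage1_frontier (i : ι) {x : V3} (hx : x ∈ facesU (G.lo1 i) (G.hi1 i) (G.S1 i)) :
    x ∈ frontier (Icc a b) ↔ x ∈ facesU (G.lo1 i) (G.hi1 i) (G.S1 i)ᶜ := by
  have h0 := G.R_pos i
  have hx0 := hx.1
  obtain ⟨hx1, hx2⟩ := G.mem_box1.1 hx0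
  constructor
  · intro h
    obtain ⟨-, k, hk⟩ := mem_frontier_Icc3.1 h
    refine ⟨hx0, ?_⟩
    have h1 := G.mem_vbox.1 hx2 k
    rcases hk with hk | hk
    · have he : G.w i k = a k := by
        rcases G.posw i k with h | h | h <;> linarith [h.1, h.2, h1.1, h1.2]
      refine ⟨(k, false), by simpa [S1] using he, ?_⟩
      simpa [lo1, he] using hk
    · have he : G.w i k = b k := by
        rcases G.posw i k with h | h | h <;> linarith [h.1, h.2, h1.1, h1.2]
      refine ⟨(k, true), by simpa [S1] using he, ?_⟩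
      simpa [hi1, he] using hk
  · rintro ⟨-, ⟨k, s⟩, hf, hk⟩
    refine mem_frontier_Icc3.2 ⟨hx1, k, ?_⟩
    cases s
    · left
      have he : G.w i k = a k := by simpa [S1] using hf
      simpa [lo1, he] using hk
    · right
      have he : G.w i k = b k := by simpa [S1] using hf
      simpa [hi1, he] using hk

theorem S1_nonempty_dir (i : ι) (k : Fin 3) : ∃ s, (k, s) ∈ G.S1 i := by
  by_cases h : G.w i k = a k
  · refine ⟨true, ?_⟩
    have := G.hab k
    have : G.w i k ≠ b k := by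
      intro h'
      linarith
    simpa [S1] using this
  · exact ⟨false, by simpa [S1] using h⟩

theorem S1_compl_dir (i : ι) (k : Fin 3) : ¬ ((k, false) ∈ (G.S1 i)ᶜ ∧ (k, true) ∈ (G.S1 i)ᶜ) := by
  rintro ⟨h1, h2⟩
  have e1 : G.w i k = a k := by simpa [S1] using h1
  have e2 : G.w i k = b k := by simpa [S1] using h2
  have := G.hab k
  linarith

/-- there is another direction -/
theorem exists_ne_dir (k : Fin 3) : ∃ k', k' ≠ k := exists_ne k

theorem S1_ne_pair (i : ι) (k : Fin 3) : G.S1 i ≠ {(k, false), (k, true)} := by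
  intro h
  obtain ⟨k', hk'⟩ := exists_ne_dir k
  obtain ⟨s, hs⟩ := G.S1_nonempty_dir i k'
  rw [h] at hs
  simp only [mem_insert_iff, mem_singleton_iff, Prod.mk.injEq] at hs
  rcases hs with hs | hs <;> exact hk' hs.1

theorem S1_compl_ne_pair (i : ι) (k : Fin 3) : (G.S1 i)ᶜ ≠ {(k, false), (k, true)} := by
  intro h
  apply G.S1_compl_dir i k
  rw [h]
  simp

theorem S1_compl_nonempty (i : ι) : (G.S1 i)ᶜ.Nonempty := by
  obtain ⟨k, hk | hk⟩ := G.bdw i
  · exact ⟨(k, false), by simpa [S1] using hk⟩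
  · exact ⟨(k, true), by simpa [S1] using hk⟩

theorem stage1_disc (hF : SpecFaces) (i : ι) : ConBall 2 (Icc a b ∩ frontier (G.vbox i))
    (frontier (Icc a b) ∩ frontier (G.vbox i)) := by
  refine disc_of_faces hF (S := G.S1 i) (G.lo1_lt_hi1 i) ?_ (G.S1_compl_nonempty i)
    (G.S1_ne_pair i) (G.S1_compl_ne_pair i) (G.stage1_inter i)
    (fun x hx => G.stage1_frontier i hx) isClosed_Icc
  obtain ⟨s, hs⟩ := G.S1_nonempty_dir i 0
  exact ⟨_, hs⟩

/-- the tile minus the open vertex boxes -/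
def K1 [Fintype ι] : Set V3 := Icc a b \ ⋃ i ∈ (Finset.univ : Finset ι), interior (G.vbox i)

theorem mem_K1 [Fintype ι] {x : V3} :
    x ∈ G.K1 ↔ x ∈ Icc a b ∧ ∀ i, x ∉ interior (G.vbox i) := by
  simp [K1]

theorem frontier_K1 [Fintype ι] {x : V3} :
    x ∈ frontier G.K1 ↔ x ∈ G.K1 ∧ (x ∈ frontier (Icc a b) ∨ ∃ i, x ∈ G.vbox i) := by
  rw [K1, frontier_diff_family _ isClosed_Icc fun i _ => G.closure_interior_vbox i]
  simp

theorem conBall_K1 (hS : AmbSch 2) (hJ : JordanSch 2 (sphere (0 : Fin 3 → ℝ) 1))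
    (hF : SpecFaces) [Fintype ι] (hout : ∃ x ∈ frontier (Icc a b), ∀ i, x ∉ G.vbox i) :
    ConBall 3 G.K1 (frontier G.K1) := by
  refine conBall_diff_family hS hJ Finset.univ (conBall_Icc_pi (by norm_num) G.hab)
    (fun i _ => G.closure_interior_vbox i) (fun i _ j _ hij => ?_)
    (fun i _ => G.stage1_disc hF i) (fun i _ => ?_) ?_
  · exact (G.disw i j hij).mono_left inter_subset_right
  · refine ⟨G.w i, mem_frontier_Icc3.2 ⟨mem_Icc_pi.2 fun k => ⟨G.w_ge i k, G.w_le i k⟩,
      G.bdw i⟩, G.mem_interior_vbox.2 fun k => ?_⟩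
    have := G.R_pos i
    constructor <;> linarith
  · obtain ⟨x, hx, hx'⟩ := hout
    exact ⟨x, hx, by simpa using hx'⟩

/-! ### Stage two -/

/-- lower bounds of the box `K1 ∩ beam j` -/
noncomputable def lo2 (j : κ) : V3 := open Classical in
  fun k => if k = G.dir j then G.w (G.p j) k + G.R (G.p j) else
    if G.w (G.p j) k = a k then a k else G.w (G.p j) k - G.r j

/-- upper bounds of the box `K1 ∩ beam j` -/
noncomputable def hi2 (j : κ) : V3 := open Classical in
  fun k => if k = G.dir j then G.w (G.q j) k - G.R (G.q j) else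
    if G.w (G.p j) k = b k then b k else G.w (G.p j) k + G.r j

/-- the inner lateral faces -/
def S2 (j : κ) : Set (Fin 3 × Bool) :=
  {f | f.1 ≠ G.dir j ∧ if f.2 then G.w (G.p j) f.1 ≠ b f.1 else G.w (G.p j) f.1 ≠ a f.1}

theorem lo2_lt_hi2 (j : κ) (k : Fin 3) : G.lo2 j k < G.hi2 j k := by
  have h0 := G.r_pos j
  have h1 := G.w_ge (G.p j) k
  have h2 := G.w_le (G.p j) k
  have h3 := G.hab k
  unfold lo2 hi2
  by_cases hk : k = G.dir j
  · rw [if_pos hk, if_pos hk, hk]
    exact G.e_lt j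
  · rw [if_neg hk, if_neg hk]
    split_ifs <;> linarith

theorem mem_box2 [Fintype ι] {j : κ} {x : V3} :
    x ∈ Icc (G.lo2 j) (G.hi2 j) ↔ x ∈ G.K1 ∧ x ∈ G.beam j := by
  have h0 := G.r_pos j
  have hr := G.r_lt j
  have hRp := G.R_pos (G.p j)
  have hRq := G.R_pos (G.q j)
  constructor
  · intro hx
    rw [mem_Icc_pi] at hx
    have hd := hx (G.dir j)
    simp only [lo2, hi2, if_true] at hd
    have hlat : ∀ k, k ≠ G.dir j → a k ≤ x k ∧ x k ≤ b k ∧ G.w (G.p j) k - G.r j ≤ x k ∧
        x k ≤ G.w (G.p j) k + G.r j := by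
      intro k hk
      have h1 := hx k
      simp only [lo2, hi2, if_neg hk] at h1
      rcases G.pose j k hk with h | h | h
      · rw [if_pos h.1, if_neg (by linarith [h.1, h.2] : G.w (G.p j) k ≠ b k)] at h1
        refine ⟨h1.1, ?_, ?_, h1.2⟩ <;> linarith [h.1, h.2, h1.1, h1.2]
      · rw [if_neg (by linarith [h.1, h.2] : G.w (G.p j) k ≠ a k), if_pos h.1] at h1
        refine ⟨?_, h1.2, h1.1, ?_⟩ <;> linarith [h.1, h.2, h1.1, h1.2]
      · rw [if_neg (by linarith [h.1, h.2] : G.w (G.p j) k ≠ a k),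
          if_neg (by linarith [h.1, h.2] : G.w (G.p j) k ≠ b k)] at h1
        refine ⟨?_, ?_, h1.1, h1.2⟩ <;> linarith [h.1, h.2, h1.1, h1.2]
    have hbeam : x ∈ G.beam j := by
      rw [mem_beam]
      intro k
      by_cases hk : k = G.dir j
      · subst hk
        constructor <;> linarith [hd.1, hd.2]
      · rw [← G.e_eq j k hk]
        exact ⟨(hlat k hk).2.2.1, (hlat k hk).2.2.2⟩
    refine ⟨G.mem_K1.2 ⟨mem_Icc_pi.2 fun k => ?_, fun i hi => ?_⟩, hbeam⟩
    · by_cases hk : k = G.dir j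
      · subst hk
        have := G.w_ge (G.p j) (G.dir j)
        have := G.w_le (G.q j) (G.dir j)
        constructor <;> linarith [hd.1, hd.2]
      · exact ⟨(hlat k hk).1, (hlat k hk).2.1⟩
    · by_cases hip : i = G.p j
      · subst hip
        have := (G.mem_interior_vbox.1 hi (G.dir j)).2
        linarith [hd.1]
      · by_cases hiq : i = G.q j
        · subst hiq
          have := (G.mem_interior_vbox.1 hi (G.dir j)).1
          linarith [hd.2]
        · exact disjoint_left.1 (G.disb j i hip hiq) hbeam (interior_subset hi)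
  · rintro ⟨hx1, hx2⟩
    obtain ⟨hxC, hxv⟩ := G.mem_K1.1 hx1
    rw [mem_beam] at hx2
    rw [mem_Icc_pi] at hxC ⊢
    have hp : G.w (G.p j) (G.dir j) + G.R (G.p j) ≤ x (G.dir j) := by
      by_contra hc
      push Not at hc
      apply hxv (G.p j)
      rw [mem_interior_vbox]
      intro k
      by_cases hk : k = G.dir j
      · subst hk
        have := (hx2 (G.dir j)).1
        constructor <;> linarith
      · have h1 := hx2 k
        rw [← G.e_eq j k hk] at h1
        constructor <;> linarith [h1.1, h1.2, hr.1]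
    have hq : x (G.dir j) ≤ G.w (G.q j) (G.dir j) - G.R (G.q j) := by
      by_contra hc
      push Not at hc
      apply hxv (G.q j)
      rw [mem_interior_vbox]
      intro k
      by_cases hk : k = G.dir j
      · subst hk
        have := (hx2 (G.dir j)).2
        constructor <;> linarith
      · have h1 := hx2 k
        rw [G.e_eq j k hk] at h1
        constructor <;> linarith [h1.1, h1.2, hr.2]
    intro k
    unfold lo2 hi2
    by_cases hk : k = G.dir j
    · subst hk
      simp only [if_true]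
      exact ⟨hp, hq⟩
    · rw [if_neg hk, if_neg hk]
      have h1 := hx2 k
      rw [← G.e_eq j k hk] at h1
      have h2 := hxC k
      constructor <;> split_ifs <;> linarith [h1.1, h1.2, h2.1, h2.2]

theorem stage2_inter [Fintype ι] (j : κ) :
    G.K1 ∩ frontier (G.beam j) = facesU (G.lo2 j) (G.hi2 j) (G.S2 j) := by
  have h0 := G.r_pos j
  have hRp := G.R_pos (G.p j)
  have hRq := G.R_pos (G.q j)
  ext x
  constructor
  · rintro ⟨hx1, hx2⟩
    obtain ⟨hx2, k, hk⟩ := G.mem_frontier_beam.1 hx2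
    have hbox := G.mem_box2.2 ⟨hx1, hx2⟩
    refine ⟨hbox, ?_⟩
    have hC := mem_Icc_pi.1 (G.mem_K1.1 hx1).1 k
    have hkd : k ≠ G.dir j := by
      rintro rfl
      have h1 := mem_Icc_pi.1 hbox (G.dir j)
      simp only [lo2, hi2, if_true] at h1
      rcases hk with hk | hk <;> linarith [h1.1, h1.2]
    rw [← G.e_eq j k hkd] at hk
    rcases hk with hk | hk
    · have hne : G.w (G.p j) k ≠ a k := by
        intro h
        linarith [hC.1]
      refine ⟨(k, false), ⟨hkd, by simpa using hne⟩, ?_⟩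
      simp only [lo2, if_neg hkd, if_neg hne, Bool.false_eq_true, if_false]
      exact hk
    · have hne : G.w (G.p j) k ≠ b k := by
        intro h
        linarith [hC.2]
      refine ⟨(k, true), ⟨hkd, by simpa using hne⟩, ?_⟩
      simp only [hi2, if_neg hkd, if_neg hne, if_true]
      exact hk
  · rintro ⟨hx, ⟨k, s⟩, ⟨hkd, hf⟩, hk⟩
    simp only at hkd
    obtain ⟨hx1, hx2⟩ := G.mem_box2.1 hx
    refine ⟨hx1, G.mem_frontier_beam.2 ⟨hx2, k, ?_⟩⟩
    rw [← G.e_eq j k hkd]
    cases s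
    · left
      have hne : G.w (G.p j) k ≠ a k := by simpa using hf
      simpa [lo2, hne, hkd] using hk
    · right
      have hne : G.w (G.p j) k ≠ b k := by simpa using hf
      simpa [hi2, hne, hkd] using hk

theorem stage2_frontier [Fintype ι] (j : κ) {x : V3}
    (hx : x ∈ facesU (G.lo2 j) (G.hi2 j) (G.S2 j)) :
    x ∈ frontier G.K1 ↔ x ∈ facesU (G.lo2 j) (G.hi2 j) (G.S2 j)ᶜ := by
  have h0 := G.r_pos j
  have hr := G.r_lt j
  have hRp := G.R_pos (G.p j)
  have hRq := G.R_pos (G.q j)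
  have hx0 := hx.1
  obtain ⟨hx1, hx2⟩ := G.mem_box2.1 hx0
  have hxC := (G.mem_K1.1 hx1).1
  have hd := mem_Icc_pi.1 hx0 (G.dir j)
  simp only [lo2, hi2, if_true] at hd
  have hb := G.mem_beam.1 hx2
  constructor
  · intro h
    refine ⟨hx0, ?_⟩
    rcases (G.frontier_K1.1 h).2 with h | ⟨i, hi⟩
    · obtain ⟨-, k, hk⟩ := mem_frontier_Icc3.1 h
      have hkd : k ≠ G.dir j := by
        rintro rfl
        have := G.w_ge (G.p j) (G.dir j)
        have := G.w_le (G.q j) (G.dir j)
        rcases hk with hk | hk <;> linarith [hd.1, hd.2]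
      have hbk := hb k
      rw [← G.e_eq j k hkd] at hbk
      rcases hk with hk | hk
      · have he : G.w (G.p j) k = a k := by
          rcases G.pose j k hkd with h | h | h <;> linarith [h.1, h.2, hbk.1, hbk.2]
        refine ⟨(k, false), fun h => ?_, ?_⟩
        · exact absurd he (by simpa using h.2)
        · simpa [lo2, he, hkd] using hk
      · have he : G.w (G.p j) k = b k := by
          rcases G.pose j k hkd with h | h | h <;> linarith [h.1, h.2, hbk.1, hbk.2]
        refine ⟨(k, true), fun h => ?_, ?_⟩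
        · exact absurd he (by simpa using h.2)
        · simpa [hi2, he, hkd] using hk
    · by_cases hip : i = G.p j
      · subst hip
        have h1 := (G.mem_vbox.1 hi (G.dir j)).2
        refine ⟨(G.dir j, false), fun h => h.1 rfl, ?_⟩
        simp only [lo2, if_true, Bool.false_eq_true, if_false]
        linarith [hd.1]
      · by_cases hiq : i = G.q j
        · subst hiq
          have h1 := (G.mem_vbox.1 hi (G.dir j)).1
          refine ⟨(G.dir j, true), fun h => h.1 rfl, ?_⟩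
          simp only [hi2, if_true]
          linarith [hd.2]
        · exact absurd hi fun hi => disjoint_left.1 (G.disb j i hip hiq) hx2 hi
  · rintro ⟨-, ⟨k, s⟩, hf, hk⟩
    rw [frontier_K1]
    refine ⟨hx1, ?_⟩
    by_cases hkd : k = G.dir j
    · right
      subst hkd
      cases s
      · refine ⟨G.p j, G.mem_vbox.2 fun l => ?_⟩
        simp only [lo2, if_true, Bool.false_eq_true, if_false] at hk
        by_cases hl : l = G.dir j
        · subst hl
          constructor <;> linarith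
        · have h1 := hb l
          rw [← G.e_eq j l hl] at h1
          constructor <;> linarith [h1.1, h1.2, hr.1]
      · refine ⟨G.q j, G.mem_vbox.2 fun l => ?_⟩
        simp only [hi2, if_true] at hk
        by_cases hl : l = G.dir j
        · subst hl
          constructor <;> linarith
        · have h1 := hb l
          rw [G.e_eq j l hl] at h1
          constructor <;> linarith [h1.1, h1.2, hr.2]
    · left
      refine mem_frontier_Icc3.2 ⟨hxC, k, ?_⟩
      cases s
      · left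
        have he : G.w (G.p j) k = a k := by
          by_contra hne
          exact hf ⟨hkd, by simpa using hne⟩
        simpa [lo2, he, hkd] using hk
      · right
        have he : G.w (G.p j) k = b k := by
          by_contra hne
          exact hf ⟨hkd, by simpa using hne⟩
        simpa [hi2, he, hkd] using hk

theorem S2_nonempty_dir (j : κ) {k : Fin 3} (hk : k ≠ G.dir j) : ∃ s, (k, s) ∈ G.S2 j := by
  by_cases h : G.w (G.p j) k = a k
  · refine ⟨true, hk, ?_⟩
    have := G.hab k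
    have : G.w (G.p j) k ≠ b k := by
      intro h'
      linarith
    simpa using this
  · exact ⟨false, hk, by simpa using h⟩

theorem exists_third (k l : Fin 3) : ∃ m : Fin 3, m ≠ k ∧ m ≠ l := by
  revert k l
  decide

theorem S2_ne_pair (j : κ) (k : Fin 3) : G.S2 j ≠ {(k, false), (k, true)} := by
  intro h
  obtain ⟨m, hm, hmk⟩ := exists_third (G.dir j) k
  obtain ⟨s, hs⟩ := G.S2_nonempty_dir j hm
  rw [h] at hs
  simp only [mem_insert_iff, mem_singleton_iff, Prod.mk.injEq] at hs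
  rcases hs with hs | hs <;> exact hmk hs.1

theorem S2_compl_ne_pair (j : κ) (k : Fin 3) : (G.S2 j)ᶜ ≠ {(k, false), (k, true)} := by
  intro h
  have h1 : (G.dir j, false) ∈ (G.S2 j)ᶜ := fun h => h.1 rfl
  have hk : G.dir j = k := by
    rw [h] at h1
    simpa using h1
  obtain ⟨l, hl, hl'⟩ := G.bde j
  have h2 : ∃ s, (l, s) ∈ (G.S2 j)ᶜ := by
    rcases hl' with hl' | hl'
    · exact ⟨false, fun h => absurd hl' (by simpa using h.2)⟩
    · exact ⟨true, fun h => absurd hl' (by simpa using h.2)⟩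
  obtain ⟨s, hs⟩ := h2
  rw [h] at hs
  simp only [mem_insert_iff, mem_singleton_iff, Prod.mk.injEq] at hs
  rcases hs with hs | hs <;> exact hl (hs.1.trans hk.symm)

theorem stage2_disc (hF : SpecFaces) [Fintype ι] (j : κ) :
    ConBall 2 (G.K1 ∩ frontier (G.beam j)) (frontier G.K1 ∩ frontier (G.beam j)) := by
  obtain ⟨l, hl, -⟩ := G.bde j
  obtain ⟨s, hs⟩ := G.S2_nonempty_dir j hl
  refine disc_of_faces hF (S := G.S2 j) (G.lo2_lt_hi2 j) ⟨_, hs⟩
    ⟨(G.dir j, false), fun h => h.1 rfl⟩ (G.S2_ne_pair j) (G.S2_compl_ne_pair j)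
    (G.stage2_inter j) (fun x hx => G.stage2_frontier j hx) ?_
  exact isClosed_diff_family _ isClosed_Icc

/-- the tile minus the open vertex boxes and beams -/
def K2 [Fintype ι] [Fintype κ] : Set V3 :=
  G.K1 \ ⋃ j ∈ (Finset.univ : Finset κ), interior (G.beam j)

theorem mem_K2 [Fintype ι] [Fintype κ] {x : V3} : x ∈ G.K2 ↔
    x ∈ Icc a b ∧ (∀ i, x ∉ interior (G.vbox i)) ∧ ∀ j, x ∉ interior (G.beam j) := by
  simp [K2, mem_K1, and_assoc]

theorem isClosed_K1 [Fintype ι] : IsClosed G.K1 := isClosed_diff_family _ isClosed_Icc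

theorem isClosed_K2 [Fintype ι] [Fintype κ] : IsClosed G.K2 :=
  isClosed_diff_family _ G.isClosed_K1

theorem frontier_K2 [Fintype ι] [Fintype κ] {x : V3} : x ∈ frontier G.K2 ↔
    x ∈ G.K2 ∧ (x ∈ frontier (Icc a b) ∨ (∃ i, x ∈ G.vbox i) ∨ ∃ j, x ∈ G.beam j) := by
  rw [K2, frontier_diff_family _ G.isClosed_K1 fun j _ => G.closure_interior_beam j]
  constructor
  · rintro ⟨h1, h2 | h2⟩
    · rcases (G.frontier_K1.1 h2).2 with h | h
      · exact ⟨h1, Or.inl h⟩
      · exact ⟨h1, Or.inr (Or.inl h)⟩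
    · obtain ⟨j, -, hj⟩ := mem_iUnion₂.1 h2
      exact ⟨h1, Or.inr (Or.inr ⟨j, hj⟩)⟩
  · rintro ⟨h1, h2 | h2 | ⟨j, hj⟩⟩
    · exact ⟨h1, Or.inl (G.frontier_K1.2 ⟨h1.1, Or.inl h2⟩)⟩
    · exact ⟨h1, Or.inl (G.frontier_K1.2 ⟨h1.1, Or.inr h2⟩)⟩
    · exact ⟨h1, Or.inr (mem_iUnion₂.2 ⟨j, Finset.mem_univ j, hj⟩)⟩

/-- **The tile minus the vertex boxes and the beams is a ball.** -/
theorem conBall_K2 (hS : AmbSch 2) (hJ : JordanSch 2 (sphere (0 : Fin 3 → ℝ) 1))
    (hF : SpecFaces) [Fintype ι] [Fintype κ]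
    (hout : ∃ x ∈ frontier (Icc a b), (∀ i, x ∉ G.vbox i) ∧ ∀ j, x ∉ G.beam j) :
    ConBall 3 G.K2 (frontier G.K2) := by
  obtain ⟨x₀, hx₀, hx₁, hx₂⟩ := hout
  refine conBall_diff_family hS hJ Finset.univ (G.conBall_K1 hS hJ hF ⟨x₀, hx₀, hx₁⟩)
    (fun j _ => G.closure_interior_beam j) (fun j _ j' _ hjj => ?_)
    (fun j _ => G.stage2_disc hF j) (fun j _ => ?_) ?_
  · rw [disjoint_left]
    rintro x ⟨hx1, hx2⟩ hx3
    obtain ⟨i, hi⟩ := mem_iUnion.1 (G.disbb j j' hjj ⟨hx2, hx3⟩)
    exact (G.mem_K1.1 hx1).2 i hi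
  · -- the middle point of the edge
    have h0 := G.r_pos j
    have hRp := G.R_pos (G.p j)
    have hRq := G.R_pos (G.q j)
    have he := G.e_lt j
    set x : V3 := fun k => if k = G.dir j then
      (G.w (G.p j) k + G.R (G.p j) + (G.w (G.q j) k - G.R (G.q j))) / 2 else G.w (G.p j) k with hx
    have hxd : x (G.dir j) = (G.w (G.p j) (G.dir j) + G.R (G.p j) +
        (G.w (G.q j) (G.dir j) - G.R (G.q j))) / 2 := by simp [hx]
    have hxk : ∀ k, k ≠ G.dir j → x k = G.w (G.p j) k := by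
      intro k hk
      simp [hx, hk]
    have hint : x ∈ interior (G.beam j) := by
      rw [beam, interior_Icc3]
      intro k
      by_cases hk : k = G.dir j
      · subst hk
        rw [hxd]
        constructor <;> linarith
      · rw [hxk k hk, ← G.e_eq j k hk]
        constructor <;> linarith
    have hbox : x ∈ Icc (G.lo2 j) (G.hi2 j) := by
      rw [mem_Icc_pi]
      intro k
      by_cases hk : k = G.dir j
      · subst hk
        simp only [lo2, hi2, if_true]
        rw [hxd]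
        constructor <;> linarith
      · have h1 := G.w_ge (G.p j) k
        have h2 := G.w_le (G.p j) k
        simp only [lo2, hi2, if_neg hk]
        rw [hxk k hk]
        constructor <;> split_ifs <;> linarith
    have hK1 := (G.mem_box2.1 hbox).1
    refine ⟨x, G.frontier_K1.2 ⟨hK1, Or.inl (mem_frontier_Icc3.2 ⟨(G.mem_K1.1 hK1).1, ?_⟩)⟩, hint⟩
    obtain ⟨l, hl, hl'⟩ := G.bde j
    refine ⟨l, ?_⟩
    rw [hxk l hl]
    exact hl'
  · refine ⟨x₀, G.frontier_K1.2 ⟨G.mem_K1.2 ⟨(mem_frontier_Icc3.1 hx₀).1, fun i hi =>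
      hx₁ i (interior_subset hi)⟩, Or.inl hx₀⟩, ?_⟩
    simpa using hx₂

end TileGeo

end P073.TM
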